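import Crest.Agent.N250.Cc.Defs

/-!
# Row 250, block (B2), helper93: curve algebra and the family of full-disc Hensel curves.
-/

set_option autoImplicit false
set_option linter.unusedSectionVars false

open Set Metric Filter Topology Function

noncomputable section

namespace Crest.Agent.N250.Cc
open B2

variable {ι κ Γ : Type} [Fintype ι] [Fintype κ] [DecidableEq κ] {P : ℕ → ι ⊕ κ → ℝ} {q : ℕ}
  {al : ℝ}

theorem exists_ord (h0 : P 0 = 0) (hne : ∃ m j, P m (Sum.inr j) ≠ 0) : ∃ q al, Ord P q al := by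
  classical
  refine ⟨Nat.find hne, _, h0, ?_, fun m hm j => ?_, rfl, ?_⟩
  · rw [Nat.find_pos]; rintro ⟨j, hj⟩; exact hj (by rw [h0]; rfl)
  · by_contra h; exact Nat.find_min hne hm ⟨j, h⟩
  · obtain ⟨j, hj⟩ := Nat.find_spec hne
    exact norm_pos_iff.2 fun h => hj (congrFun h j)

theorem cv_apply (P : ℕ → ι ⊕ κ → ℝ) (N : ℕ) (t : ℂ) (i : ι ⊕ κ) :
    cv P N t i = ∑ m ∈ Finset.range N, t ^ m * (P m i : ℂ) := by
  simp [cv, tr, ofR, Finset.sum_apply]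

theorem cv_tail (P : ℕ → ι ⊕ κ → ℝ) {n N : ℕ} (h : n ≤ N) :
    ∃ C, 0 ≤ C ∧ ∀ t : ℂ, ‖t‖ ≤ 1 → ‖cv P N t - cv P n t‖ ≤ C * ‖t‖ ^ n := by
  refine ⟨∑ m ∈ Finset.Ico n N, ‖ofR (P m)‖, by positivity, fun t ht => ?_⟩
  rw [cv, cv, tr, tr, ← Finset.sum_Ico_eq_sub _ h, Finset.sum_mul]
  refine (norm_sum_le _ _).trans (Finset.sum_le_sum fun m hm => ?_)
  rw [norm_smul, norm_pow, mul_comm]
  exact mul_le_mul_of_nonneg_left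
    (pow_le_pow_of_le_one (norm_nonneg _) ht (Finset.mem_Ico.1 hm).1) (norm_nonneg _)

theorem cv_one (h0 : P 0 = 0) (t : ℂ) : cv P 1 t = 0 := by
  funext i; simp [cv_apply, h0]

theorem Ord.cv_end (h : Ord P q al) (t : ℂ) (j : κ) :
    cv P (q + 1) t (Sum.inr j) = t ^ q * (P q (Sum.inr j) : ℂ) := by
  rw [cv_apply, Finset.sum_range_succ, Finset.sum_eq_zero fun m hm => by
    rw [h.low m (Finset.mem_range.1 hm) j]; simp, zero_add]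

theorem Ord.abs_le (h : Ord P q al) (j : κ) : |P q (Sum.inr j)| ≤ al := by
  rw [h.al_eq]; exact norm_le_pi_norm (aa (P q)) j

theorem Ord.ball_sub (h : Ord P q al) (Q : Cells Γ) {r d : ℝ} (hr : 0 < r) (hd : 1 < d) {K : ℕ}
    (hK : q + 1 ≤ K) : ∃ r3, 0 < r3 ∧ r3 ≤ 1 / 2 ∧ ∀ t : ℂ, ‖t‖ < r3 → ∀ ρ,
      d * (al * ‖t‖ ^ q) ≤ ρ → 0 < ρ → ρ < Q.ρ0 →
        ball (cv P (K + 1) t) (‖t‖ ^ K) ⊆ Q.Dom r fun _ : κ => Q.disc ρ := by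
  obtain ⟨C1, p1, h1⟩ := cv_tail P (n := 1) (N := K + 1) (by omega)
  obtain ⟨C2, p2, h2⟩ := cv_tail P (n := q + 1) (N := K + 1) (by omega)
  have ha := h.al_pos
  have hq := h.q_pos
  refine ⟨min (1 / 2) (min (r / (C1 + 1)) ((d - 1) * al / (C2 + 1))),
    lt_min (by norm_num) (lt_min (by positivity) (div_pos (mul_pos (by linarith) ha) (by linarith))),
    min_le_left _ _, fun t ht ρ hρ h0 hρ0 z hz => ?_⟩
  rw [lt_min_iff, lt_min_iff, lt_div_iff₀ (by linarith : 0 < C1 + 1),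
    lt_div_iff₀ (by linarith : 0 < C2 + 1)] at ht
  obtain ⟨t1, t2, t3⟩ := ht
  have tn := norm_nonneg t
  have t4 : ‖t‖ ≤ 1 := by linarith
  rw [mem_ball, dist_eq_norm] at hz
  have hz' : ∀ i, ‖z i - cv P (K + 1) t i‖ < ‖t‖ ^ K := fun i =>
    (norm_le_pi_norm (z - cv P (K + 1) t) i).trans_lt hz
  refine ⟨fun i => ?_, fun j => ?_⟩
  · have a1 := h1 t t4
    rw [cv_one h.zero, sub_zero, pow_one] at a1
    have a2 := norm_le_pi_norm (cv P (K + 1) t) (Sum.inl i)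
    have a3 : ‖t‖ ^ K ≤ ‖t‖ ^ 1 := pow_le_pow_of_le_one tn t4 (by omega)
    have a4 := norm_le_norm_add_norm_sub' (z (Sum.inl i)) (cv P (K + 1) t (Sum.inl i))
    have := hz' (Sum.inl i)
    nlinarith
  · rw [Q.dom_disc ρ h0 hρ0, mem_ball_zero_iff]
    have a1 := (norm_le_pi_norm (cv P (K + 1) t - cv P (q + 1) t) (Sum.inr j)).trans (h2 t t4)
    rw [Pi.sub_apply, h.cv_end] at a1
    have a2 : ‖t ^ q * (P q (Sum.inr j) : ℂ)‖ ≤ al * ‖t‖ ^ q := by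
      rw [norm_mul, norm_pow, Complex.norm_real, mul_comm]
      exact mul_le_mul_of_nonneg_right (h.abs_le j) (by positivity)
    have a3 : ‖t‖ ^ K ≤ ‖t‖ ^ (q + 1) := pow_le_pow_of_le_one tn t4 hK
    have a4 := norm_le_norm_add_norm_sub' (z (Sum.inr j)) (cv P (K + 1) t (Sum.inr j))
    have a5 := norm_le_norm_add_norm_sub' (cv P (K + 1) t (Sum.inr j))
      (t ^ q * (P q (Sum.inr j) : ℂ))
    have a6 := hz' (Sum.inr j)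
    have a7 : (C2 + 1) * ‖t‖ ^ (q + 1) ≤ (d - 1) * al * ‖t‖ ^ q := by
      rw [pow_succ]
      nlinarith [pow_nonneg tn q]
    nlinarith

/-- the parameters adapted to the disc of radius `ρ` -/
def OO (al : ℝ) (q : ℕ) (d Λ r3 ρ : ℝ) : Set ℂ :=
  {t | 0 < ‖t‖ ∧ ‖t‖ < r3 ∧ d * (al * ‖t‖ ^ q) < ρ ∧ ρ < Λ * ‖t‖}

theorem isOpen_OO (al : ℝ) (q : ℕ) (d Λ r3 ρ : ℝ) : IsOpen (OO al q d Λ r3 ρ) :=
  (isOpen_lt continuous_const continuous_norm).inter ((isOpen_lt continuous_norm continuous_const).inter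
    ((isOpen_lt (f := fun t : ℂ => d * (al * ‖t‖ ^ q)) (by fun_prop) continuous_const).inter
      (isOpen_lt (g := fun t : ℂ => Λ * ‖t‖) continuous_const (by fun_prop))))

/-- the family of Hensel curves of the full-disc pieces -/
structure Fm (Q : Cells Γ) (F : (κ → Γ) → (ι ⊕ κ → ℂ) → ℂ) (r c : ℝ) (P : ℕ → ι ⊕ κ → ℝ) (q : ℕ)
    (al d Λ r3 : ℝ) (K : ℕ) (f0 : ℂ) (z : ℝ → ℂ → ι ⊕ κ → ℂ) (μ : ℕ) (C : ℝ) : Prop where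
  r3_pos : 0 < r3
  r3_le : r3 ≤ 1 / 2
  Λ_le : Λ * r3 ≤ Q.ρ0
  C_nonneg : 0 ≤ C
  C_le : C * r3 ≤ 1 / 4
  sub : ∀ t : ℂ, ‖t‖ < r3 → ∀ ρ, d * (al * ‖t‖ ^ q) ≤ ρ → 0 < ρ → ρ < Q.ρ0 →
    ball (cv P (K + 1) t) (‖t‖ ^ K) ⊆ Q.Dom r fun _ : κ => Q.disc ρ
  near : ∀ ρ, ∀ t ∈ OO al q d Λ r3 ρ, ‖z ρ t - cv P (K + 1) t‖ ≤ C * ‖t‖ ^ (K + 1)
  hol : ∀ ρ, DifferentiableOn ℂ (z ρ) (OO al q d Λ r3 ρ)
  flat : ∀ n : ℕ, ∃ C', ∀ ρ, ∀ t ∈ OO al q d Λ r3 ρ,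
    ‖fderiv ℂ (Fd Q F ρ) (z ρ t)‖ ≤ C' * ‖t‖ ^ n ∧ ‖Fd Q F ρ (z ρ t) - f0‖ ≤ C' * ‖t‖ ^ n
  jmp : ∃ C', 0 ≤ C' ∧ ∀ ρ ρ' ρm, ρ ≤ ρm → ρ' ≤ ρm → ρm < Q.ρ0 → ∀ t ∈ OO al q d Λ r3 ρ,
    t ∈ OO al q d Λ r3 ρ' → ‖z ρ t - z ρ' t‖ ≤ C' * (Real.exp (-c / ρm) / ‖t‖ ^ μ)

variable {Q : Cells Γ} {F : (κ → Γ) → (ι ⊕ κ → ℂ) → ℂ} {r c C : ℝ}

/-- two full-disc pieces -/
theorem fd_cmp (hW : Wk Q F r c C) {ρ ρ' ρm : ℝ} (h0 : 0 < ρ) (h0' : 0 < ρ') (h1 : ρ ≤ ρm)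
    (h1' : ρ' ≤ ρm) (hm : ρm < Q.ρ0) {y : ι ⊕ κ → ℂ} (hy : y ∈ Q.Dom r fun _ : κ => Q.disc ρ)
    (hy' : y ∈ Q.Dom r fun _ : κ => Q.disc ρ') :
    ‖Fd Q F ρ y - Fd Q F ρ' y‖ ≤ 2 * (Fintype.card κ * max C 0) * Real.exp (-c / ρm) := by
  have a := EX.cmp_disc hW (EX.adm_disc Q h0 (h1.trans_lt hm)) (h0.trans_le h1) hm
    (fun _ => by rw [Q.sz_disc ρ h0 (h1.trans_lt hm)]; exact h1) hy
  have b := EX.cmp_disc hW (EX.adm_disc Q h0' (h1'.trans_lt hm)) (h0.trans_le h1) hm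
    (fun _ => by rw [Q.sz_disc ρ' h0' (h1'.trans_lt hm)]; exact h1') hy'
  have e := norm_sub_le_norm_sub_add_norm_sub (Fd Q F ρ y) (Fd Q F ρm y) (Fd Q F ρ' y)
  rw [norm_sub_rev (Fd Q F ρm y)] at e
  unfold Fd at *
  linarith

theorem OO.pos {d Λ r3 ρ : ℝ} {t : ℂ} (ha : 0 < al) (hd : 1 < d) (h : t ∈ OO al q d Λ r3 ρ) :
    0 < ρ := lt_of_le_of_lt (by have := h.1; have : 0 < d := by linarith
                                positivity) h.2.2.1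

theorem OO.lt {d Λ r3 ρ ρ0 : ℝ} {t : ℂ} (ha : 0 < al) (hd : 1 < d) (hΛ : Λ * r3 ≤ ρ0)
    (h : t ∈ OO al q d Λ r3 ρ) : ρ < ρ0 := by
  have h1 := OO.pos ha hd h
  have h2 : 0 < Λ := by
    by_contra h3
    nlinarith [h.1, h.2.2.2]
  nlinarith [h.2.1, h.2.2.2]

theorem exists_fm (hW : Wk Q F r c C) (h : Ord P q al) {d Λ r2 C1 : ℝ} (hd : 1 < d) (hΛ : 0 < Λ)
    {K μ : ℕ} (hK : q + 1 ≤ K) {f0 : ℂ} {Z : (κ → Γ) → ℂ → ι ⊕ κ → ℂ}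
    (hH : Hn Q F r P K Λ r2 f0 Z μ C1) :
    ∃ r3, Fm Q F r c P q al d Λ r3 K f0 (fun ρ => Z fun _ => Q.disc ρ) μ |C1| := by
  obtain ⟨r4, p4, l4, h4⟩ := h.ball_sub Q hW.r_pos hd hK
  have p0 := Q.ρ0_pos
  have p2 := hH.r2_pos
  have ha := h.al_pos
  set r3 := min (min r4 r2) (min (Q.ρ0 / Λ) (1 / (4 * (|C1| + 1)))) with hr3
  have l1 : r3 ≤ r4 := (min_le_left _ _).trans (min_le_left _ _)
  have l2 : r3 ≤ r2 := (min_le_left _ _).trans (min_le_right _ _)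
  have l3 : r3 ≤ Q.ρ0 / Λ := (min_le_right _ _).trans (min_le_left _ _)
  have l5 : r3 ≤ 1 / (4 * (|C1| + 1)) := (min_le_right _ _).trans (min_le_right _ _)
  have p3 : 0 < r3 := by positivity
  rw [le_div_iff₀ hΛ, mul_comm] at l3
  rw [le_div_iff₀ (by positivity)] at l5
  have hs : ∀ ρ, ∀ t ∈ OO al q d Λ r3 ρ,
      ball (cv P (K + 1) t) (‖t‖ ^ K) ⊆ Q.Dom r fun _ : κ => Q.disc ρ := fun ρ t ht =>
    h4 t (ht.2.1.trans_le l1) ρ ht.2.2.1.le (OO.pos ha hd ht) (OO.lt ha hd l3 ht)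
  have hO : ∀ ρ, OO al q d Λ r3 ρ ⊆ Om Q r P K Λ r2 fun _ : κ => Q.disc ρ := fun ρ t ht => by
    refine ⟨interior_maximal (fun t ht => ?_) (isOpen_OO al q d Λ r3 ρ) ht,
      mem_ball_zero_iff.2 (ht.2.1.trans_le l2)⟩
    have a := OO.pos ha hd ht
    have b := OO.lt ha hd l3 ht
    exact ⟨EX.adm_disc Q a b, norm_pos_iff.1 ht.1,
      fun _ => by rw [Q.sz_disc ρ a b]; exact ht.2.2.2.le, hs ρ t ht⟩
  refine ⟨r3, p3, l1.trans l4, l3, abs_nonneg _, by nlinarith [abs_nonneg C1],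
    fun t ht => h4 t (ht.trans_le l1), fun ρ t ht => ?_, fun ρ => (hH.hol _).mono (hO ρ),
    fun n => ?_, |C1| * (2 * (Fintype.card κ * max C 0)), by positivity,
    fun ρ ρ' ρm h1 h2 h3 t ht ht' => ?_⟩
  · exact (hH.near _ t (hO ρ ht)).trans
      (mul_le_mul_of_nonneg_right (le_abs_self _) (by positivity))
  · obtain ⟨C', hC'⟩ := hH.flat n
    exact ⟨C', fun ρ t ht => hC' _ t (hO ρ ht)⟩
  · refine (hH.jmp _ _ t (hO ρ ht) (hO ρ' ht') _ fun y hy =>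
      fd_cmp hW (OO.pos ha hd ht) (OO.pos ha hd ht') h1 h2 h3 (hs ρ t ht hy) (hs ρ' t ht' hy)).trans ?_
    rw [← mul_div_assoc, mul_assoc |C1|]
    gcongr
    exact le_abs_self C1

end Crest.Agent.N250.Cc

end
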