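import Crest.Agent.N250.B2.Stm
import Crest.Agent.N250.EX.Main

/-!
# Row 250, block (B2), helper93: full-disc cells along the formal curve.  Definitions, pure lemmas.
-/

set_option autoImplicit false
set_option linter.unusedSectionVars false

open Set Metric Filter Topology Function

noncomputable section

namespace Crest.Agent.N250.Cc
open B2

variable {ι κ Γ : Type} [Fintype ι] [Fintype κ] [DecidableEq κ]

/-- the piece with the full disc of radius `ρ` at every end -/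
def Fd (Q : Cells Γ) (F : (κ → Γ) → (ι ⊕ κ → ℂ) → ℂ) (ρ : ℝ) : (ι ⊕ κ → ℂ) → ℂ :=
  F fun _ => Q.disc ρ

/-- inverse size of the largest end along the curve -/
def sg (al : ℝ) (q : ℕ) (t : ℂ) : ℝ := (al * ‖t‖ ^ q)⁻¹

/-- the annulus attached to the scale `s` -/
def An (al : ℝ) (q : ℕ) (th Lam s : ℝ) : Set ℂ :=
  {t | th * s < sg al q t ∧ sg al q t < Lam * s}

/-- order and leading size of the end parameters along the curve -/
structure Ord (P : ℕ → ι ⊕ κ → ℝ) (q : ℕ) (al : ℝ) : Prop where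
  zero : P 0 = 0
  q_pos : 0 < q
  low : ∀ m < q, ∀ j, P m (Sum.inr j) = 0
  al_eq : al = ‖aa (P q)‖
  al_pos : 0 < al

/-- OUTPUT: one `C¹` family `Z s` of holomorphic almost critical curves -/
structure Cv (Q : Cells Γ) (F : (κ → Γ) → (ι ⊕ κ → ℂ) → ℂ) (r : ℝ) (P : ℕ → ι ⊕ κ → ℝ) (q : ℕ)
    (al lam Lam th s1 C : ℝ) (M : ℕ) (f0 : ℂ) (Z : ℝ → ℂ → ι ⊕ κ → ℂ) : Prop where
  th_pos : 0 < th
  th_lt : th < 1
  s1_pos : 0 < s1
  hol : ∀ s, s1 < s → DifferentiableOn ℂ (Z s) (An al q th Lam s)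
  c1 : ∀ s, s1 < s → ∀ t ∈ An al q th Lam s, ContDiffAt ℝ 1 (uncurry Z) (s, t)
  ds : ∀ s, s1 < s → ∀ t ∈ An al q th Lam s,
    ∃ Z', HasDerivAt (fun s => Z s t) Z' s ∧ ‖Z'‖ ≤ C * Real.exp (-lam * s)
  near : ∀ s, s1 < s → ∀ t ∈ An al q th Lam s, ‖Z s t - cv P M t‖ ≤ C * ‖t‖ ^ M
  dom : ∀ s, s1 < s → ∀ t ∈ An al q th Lam s, (th ^ 2 * s)⁻¹ < Q.ρ0 ∧
    ∀ ρ, (th * sg al q t)⁻¹ ≤ ρ → ρ < Q.ρ0 →
      ball (Z s t) (‖t‖ ^ M) ⊆ Q.Dom r fun _ : κ => Q.disc ρ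
  grad : ∀ s, s1 < s → ∀ t ∈ An al q th Lam s, ∀ ρ, (th * sg al q t)⁻¹ ≤ ρ → ρ ≤ (th ^ 2 * s)⁻¹ →
    ‖fderiv ℂ (Fd Q F ρ) (Z s t)‖ ≤ C * Real.exp (-lam * s)
  val : ∀ s, s1 < s → ∀ t ∈ An al q th Lam s, ∀ ρ, (th * sg al q t)⁻¹ ≤ ρ → ρ ≤ (th ^ 2 * s)⁻¹ →
    ‖Fd Q F ρ (Z s t) - f0‖ ≤ C * (Real.exp (-lam * (th ^ 2 * ρ)⁻¹) + Real.exp (-(2 * lam) * s))

/-! ### pure lemmas -/

theorem poly_abs (n : ℕ) {a b A : ℝ} (hab : b < a) (hA : 0 < A) : ∃ C, 0 ≤ C ∧ ∀ s τ : ℝ, 0 < s →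
    0 < τ → τ⁻¹ ≤ A * s → Real.exp (-a * s) / τ ^ n ≤ C * Real.exp (-b * s) := by
  have hd : 0 < a - b := by linarith
  refine ⟨A ^ n * (n.factorial / (a - b) ^ n), by positivity, fun s τ hs hτ h => ?_⟩
  have h1 := Real.pow_div_factorial_le_exp ((a - b) * s) (by positivity) n
  have h3 : (0 : ℝ) < n.factorial := by positivity
  have h2 : (τ ^ n)⁻¹ ≤ A ^ n * s ^ n := by
    rw [← inv_pow, ← mul_pow]; exact pow_le_pow_left₀ (by positivity) h n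
  have h4 : s ^ n ≤ n.factorial / (a - b) ^ n * Real.exp ((a - b) * s) := by
    rw [div_le_iff₀ h3, mul_pow] at h1
    rw [div_mul_eq_mul_div, le_div_iff₀ (by positivity)]
    linarith
  have h5 : Real.exp (-b * s) = Real.exp ((a - b) * s) * Real.exp (-a * s) := by
    rw [← Real.exp_add]; ring_nf
  rw [h5, div_eq_mul_inv, mul_comm]
  calc (τ ^ n)⁻¹ * Real.exp (-a * s) ≤ A ^ n * s ^ n * Real.exp (-a * s) := by gcongr
    _ ≤ A ^ n * (n.factorial / (a - b) ^ n * Real.exp ((a - b) * s)) * Real.exp (-a * s) := by gcongr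
    _ = _ := by ring

section pair

variable {E : Type*} [NormedAddCommGroup E] [NormedSpace ℂ E]

theorem sub_half {c z : E} {R : ℝ} (hz : z ∈ ball c (R / 4)) : ball z (3 * R / 4) ⊆ ball c R :=
  ball_subset_ball' (by rw [mem_ball] at hz; linarith)

theorem mem_half {c z z' : E} {R : ℝ} (hz : z ∈ ball c (R / 4)) (hz' : z' ∈ ball c (R / 4)) :
    z' ∈ ball z (R / 2) := by
  rw [mem_ball] at *
  linarith [dist_triangle_right z' z c]

/-- gradients of two close functions at the same point -/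
theorem grad_cmp {f g : E → ℂ} {z : E} {R e : ℝ} (hR : 0 < R)
    (hf : DifferentiableOn ℂ f (ball z R)) (hg : DifferentiableOn ℂ g (ball z R))
    (he : ∀ y ∈ ball z R, ‖f y - g y‖ ≤ e) : ‖fderiv ℂ f z - fderiv ℂ g z‖ ≤ 2 * e / R := by
  have hb := ball_mem_nhds z hR
  rw [← fderiv_fun_sub (hf.differentiableAt hb) (hg.differentiableAt hb)]
  exact H.fd_le hR (hf.sub hg) he

/-- Lipschitz bound for the gradient -/
theorem grad_lip {g : E → ℂ} {c z z' : E} {R M : ℝ} (hg : DifferentiableOn ℂ g (ball c R))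
    (hM : ∀ y ∈ ball c R, ‖g y‖ ≤ M) (hz : z ∈ ball c (R / 4)) (hz' : z' ∈ ball c (R / 4)) :
    ‖fderiv ℂ g z' - fderiv ℂ g z‖ ≤ 32 * M / R ^ 2 * ‖z' - z‖ := by
  have hR : 0 < R := by linarith [nonempty_ball.1 ⟨z, hz⟩]
  have hs : ball z (R / 2) ⊆ ball c R := (ball_subset_ball (by linarith)).trans (sub_half hz)
  have h1 := H.lip_le (M := 2 * M / (R / 4))
    ((H.diffOn_fderiv isOpen_ball hM hg).mono hs) (fun y hy => by
      have h2 : ball y (R / 4) ⊆ ball c R :=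
        (ball_subset_ball' (by rw [mem_ball] at hy; linarith)).trans (sub_half hz)
      exact H.fd_le (by linarith) (hg.mono h2) fun x hx => hM x (h2 hx)) (mem_half hz hz')
  refine h1.trans (le_of_eq ?_)
  field_simp; ring

theorem pair_grad {f g : E → ℂ} {c z z' : E} {R M e : ℝ} (hf : DifferentiableOn ℂ f (ball c R))
    (hg : DifferentiableOn ℂ g (ball c R)) (hM : ∀ y ∈ ball c R, ‖g y‖ ≤ M)
    (he : ∀ y ∈ ball c R, ‖f y - g y‖ ≤ e) (hz : z ∈ ball c (R / 4)) (hz' : z' ∈ ball c (R / 4)) :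
    ‖fderiv ℂ f z - fderiv ℂ g z'‖ ≤ 4 * e / R + 32 * M / R ^ 2 * ‖z - z'‖ := by
  have hR : 0 < R := by linarith [nonempty_ball.1 ⟨z, hz⟩]
  have hs : ball z (R / 2) ⊆ ball c R := (ball_subset_ball (by linarith)).trans (sub_half hz)
  have h1 := grad_cmp (by linarith : 0 < R / 2) (hf.mono hs) (hg.mono hs) fun y hy => he y (hs hy)
  have h2 := grad_lip hg hM hz' hz
  have h3 : 2 * e / (R / 2) = 4 * e / R := by field_simp; ring
  linarith [norm_sub_le_norm_sub_add_norm_sub (fderiv ℂ f z) (fderiv ℂ g z) (fderiv ℂ g z')]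

theorem pair_val {f g : E → ℂ} {c z z' : E} {R M e : ℝ}
    (hg : DifferentiableOn ℂ g (ball c R)) (hM : ∀ y ∈ ball c R, ‖g y‖ ≤ M)
    (he : ∀ y ∈ ball c R, ‖f y - g y‖ ≤ e) (hz : z ∈ ball c (R / 4)) (hz' : z' ∈ ball c (R / 4)) :
    ‖f z - g z'‖ ≤ e + ‖fderiv ℂ g z'‖ * ‖z - z'‖ + 16 * M / R ^ 2 * ‖z - z'‖ ^ 2 := by
  have hR : 0 < R := by linarith [nonempty_ball.1 ⟨z, hz⟩]
  have hs : ball z' (R / 2) ⊆ ball c R := (ball_subset_ball (by linarith)).trans (sub_half hz')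
  have h1 := H.tay2 (hg.mono hs) (fun y hy => hM y (hs hy)) (mem_half hz' hz)
  have h2 := he z (ball_subset_ball (by linarith) hz)
  have h3 : 4 * M * (‖z - z'‖ / (R / 2)) ^ 2 = 16 * M / R ^ 2 * ‖z - z'‖ ^ 2 := by
    field_simp; ring
  have h4 := (fderiv ℂ g z').le_opNorm (z - z')
  have h5 : f z - g z' = (f z - g z) + ((g z - g z' - fderiv ℂ g z' (z - z')) +
    fderiv ℂ g z' (z - z')) := by ring
  rw [h5]
  linarith [norm_add_le (f z - g z) ((g z - g z' - fderiv ℂ g z' (z - z')) +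
    fderiv ℂ g z' (z - z')), norm_add_le (g z - g z' - fderiv ℂ g z' (z - z'))
    (fderiv ℂ g z' (z - z'))]

theorem pair_val' {f g : E → ℂ} {c z z' : E} {R M e : ℝ}
    (hg : DifferentiableOn ℂ g (ball c R)) (hM : ∀ y ∈ ball c R, ‖g y‖ ≤ M)
    (he : ∀ y ∈ ball c R, ‖f y - g y‖ ≤ e) (hz : z ∈ ball c (R / 4)) (hz' : z' ∈ ball c (R / 4)) :
    ‖f z - g z'‖ ≤ e + 4 * M / R * ‖z - z'‖ := by
  have hR : 0 < R := by linarith [nonempty_ball.1 ⟨z, hz⟩]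
  have hs : ball z' (R / 2) ⊆ ball c R := (ball_subset_ball (by linarith)).trans (sub_half hz')
  have h1 := H.lip_le (hg.mono hs) (fun y hy => hM y (hs hy)) (mem_half hz' hz)
  have h2 := he z (ball_subset_ball (by linarith) hz)
  have h3 : 2 * M / (R / 2) = 4 * M / R := by field_simp; ring
  rw [h3] at h1
  linarith [norm_sub_le_norm_sub_add_norm_sub (f z) (g z) (g z')]

end pair

/-! ### gluing in a real parameter -/

/-- smooth step, `0` below `1/4`, `1` above `3/4` -/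
def chi (u : ℝ) : ℝ := Real.smoothTransition (2 * u - 1 / 2)

theorem chi_zero {u : ℝ} (h : u ≤ 1 / 4) : chi u = 0 :=
  Real.smoothTransition.zero_of_nonpos (by linarith)

theorem chi_one {u : ℝ} (h : 3 / 4 ≤ u) : chi u = 1 :=
  Real.smoothTransition.one_of_one_le (by linarith)

theorem chi_nonneg (u : ℝ) : 0 ≤ chi u := Real.smoothTransition.nonneg _

theorem chi_le (u : ℝ) : chi u ≤ 1 := Real.smoothTransition.le_one _

theorem chi_smooth : ContDiff ℝ 1 chi :=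
  Real.smoothTransition.contDiff.comp ((contDiff_const.mul contDiff_id).sub contDiff_const)

theorem chi_bd : ∃ B, 0 ≤ B ∧ ∀ u ∈ Icc (0 : ℝ) 1, |deriv chi u| ≤ B := by
  obtain ⟨B, hB⟩ := isCompact_Icc.exists_bound_of_continuousOn
    ((chi_smooth.continuous_deriv le_rfl).continuousOn (s := Icc (0 : ℝ) 1))
  exact ⟨B, (norm_nonneg _).trans (hB 0 (by simp)), hB⟩

section glue

variable {E : Type*} [NormedAddCommGroup E] [NormedSpace ℂ E]

/-- interpolation between `z k` and `z (k + 1)` -/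
def itp (z : ℤ → ℂ → E) (k : ℤ) (s : ℝ) (t : ℂ) : E :=
  z k t + (chi (s - k) : ℂ) • (z (k + 1) t - z k t)

/-- the glued family -/
def glue (z : ℤ → ℂ → E) (s : ℝ) (t : ℂ) : E := itp z ⌊s⌋ s t

theorem glue_eq (z : ℤ → ℂ → E) {k : ℤ} {s : ℝ} (h1 : k - 1 / 4 < s) (h2 : s < k + 5 / 4) (t : ℂ) :
    glue z s t = itp z k s t := by
  unfold glue
  rcases lt_or_ge s k with h | h
  · have e : ⌊s⌋ = k - 1 := by rw [Int.floor_eq_iff]; push_cast; constructor <;> linarith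
    rw [e, itp, itp, chi_one (by push_cast; linarith), chi_zero (by linarith)]
    simp
  rcases lt_or_ge s (k + 1) with h' | h'
  · rw [Int.floor_eq_iff.2 ⟨h, h'⟩]
  · have e : ⌊s⌋ = k + 1 := by rw [Int.floor_eq_iff]; push_cast; constructor <;> linarith
    rw [e, itp, itp, chi_zero (by push_cast; linarith), chi_one (by linarith)]
    simp

theorem glue_ev (z : ℤ → ℂ → E) (s : ℝ) :
    ∀ᶠ s' in 𝓝 s, ∀ t, glue z s' t = itp z ⌊s⌋ s' t := by
  have h : Ioo ((⌊s⌋ : ℝ) - 1 / 4) (⌊s⌋ + 5 / 4) ∈ 𝓝 s :=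
    Ioo_mem_nhds (by linarith [Int.floor_le s]) (by linarith [Int.lt_floor_add_one s])
  filter_upwards [h] with s' hs' t using glue_eq z hs'.1 hs'.2 t

theorem glue_c1 [CompleteSpace E] {z : ℤ → ℂ → E} {s : ℝ} {t : ℂ} (h0 : AnalyticAt ℂ (z ⌊s⌋) t)
    (h1 : AnalyticAt ℂ (z (⌊s⌋ + 1)) t) : ContDiffAt ℝ 1 (uncurry (glue z)) (s, t) := by
  have e : uncurry (glue z) =ᶠ[𝓝 (s, t)] fun p => itp z ⌊s⌋ p.1 p.2 := by
    filter_upwards [(continuous_fst.tendsto (s, t)).eventually (glue_ev z s)] with p hp using hp p.2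
  refine ContDiffAt.congr_of_eventuallyEq ?_ e
  have a0 : ContDiffAt ℝ 1 (fun p : ℝ × ℂ => z ⌊s⌋ p.2) (s, t) :=
    ContDiffAt.comp (g := z ⌊s⌋) (s, t) (h0.contDiffAt.restrict_scalars ℝ) contDiffAt_snd
  have a1 : ContDiffAt ℝ 1 (fun p : ℝ × ℂ => z (⌊s⌋ + 1) p.2) (s, t) :=
    ContDiffAt.comp (g := z (⌊s⌋ + 1)) (s, t) (h1.contDiffAt.restrict_scalars ℝ) contDiffAt_snd
  have a2 : ContDiff ℝ 1 fun p : ℝ × ℂ => chi (p.1 - ⌊s⌋) :=
    chi_smooth.comp (contDiff_fst.sub contDiff_const)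
  have a3 := a0.add (a2.contDiffAt.smul (a1.sub a0))
  refine a3.congr_of_eventuallyEq (Eventually.of_forall fun p => ?_)
  simp [itp]

theorem glue_ds (z : ℤ → ℂ → E) (s : ℝ) (t : ℂ) : HasDerivAt (fun s => glue z s t)
    (deriv chi (s - ⌊s⌋) • (z (⌊s⌋ + 1) t - z ⌊s⌋ t)) s := by
  have e : (fun s' => glue z s' t) =ᶠ[𝓝 s] fun s' =>
      z ⌊s⌋ t + chi (s' - ⌊s⌋) • (z (⌊s⌋ + 1) t - z ⌊s⌋ t) := by
    filter_upwards [glue_ev z s] with s' hs'
    simp [hs' t, itp]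
  refine HasDerivAt.congr_of_eventuallyEq ?_ e
  have h1 : HasDerivAt (fun s' : ℝ => chi (s' - ⌊s⌋)) (deriv chi (s - ⌊s⌋)) s :=
    ((chi_smooth.differentiable one_ne_zero _).hasDerivAt).comp_sub_const s _
  exact (h1.smul_const _).const_add _

theorem glue_sub (z : ℤ → ℂ → E) (s : ℝ) (t : ℂ) :
    ‖glue z s t - z ⌊s⌋ t‖ ≤ ‖z (⌊s⌋ + 1) t - z ⌊s⌋ t‖ := by
  rw [glue, itp, add_sub_cancel_left, norm_smul, Complex.norm_real, Real.norm_of_nonneg (chi_nonneg _)]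
  exact mul_le_of_le_one_left (norm_nonneg _) (chi_le _)

theorem glue_near {z : ℤ → ℂ → E} {s : ℝ} {t : ℂ} {c : E} {d : ℝ} (h0 : ‖z ⌊s⌋ t - c‖ ≤ d)
    (h1 : ‖z (⌊s⌋ + 1) t - c‖ ≤ d) : ‖glue z s t - c‖ ≤ d := by
  have a := chi_nonneg (s - ⌊s⌋)
  have b := chi_le (s - ⌊s⌋)
  have e : glue z s t - c = ((1 - chi (s - ⌊s⌋) : ℝ) : ℂ) • (z ⌊s⌋ t - c) +
      (chi (s - ⌊s⌋) : ℂ) • (z (⌊s⌋ + 1) t - c) := by
    rw [glue, itp]; push_cast; module
  rw [e]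
  refine (norm_add_le _ _).trans ?_
  rw [norm_smul, norm_smul, Complex.norm_real, Complex.norm_real, Real.norm_of_nonneg a,
    Real.norm_of_nonneg (by linarith)]
  nlinarith

theorem glue_hol {z : ℤ → ℂ → E} {s : ℝ} {U : Set ℂ} (h0 : DifferentiableOn ℂ (z ⌊s⌋) U)
    (h1 : DifferentiableOn ℂ (z (⌊s⌋ + 1)) U) : DifferentiableOn ℂ (glue z s) U :=
  h0.add ((h1.sub h0).const_smul _)

end glue

end Crest.Agent.N250.Cc

end
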