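import Crest.Agent.N250.Cc.Exp

/-!
# Row 250, block (B2), helper93: the glued curve `Z s t` (`Cc.curve`).
-/

set_option autoImplicit false
set_option linter.unusedSectionVars false

open Set Metric Filter Topology Function

noncomputable section

namespace Crest.Agent.N250.Cc
open B2

variable {ι κ Γ : Type} [Fintype ι] [Fintype κ] [DecidableEq κ] {P : ℕ → ι ⊕ κ → ℝ} {q : ℕ}
  {al : ℝ} {Q : Cells Γ} {F : (κ → Γ) → (ι ⊕ κ → ℂ) → ℂ} {r c C d Λ r3 C1 : ℝ} {K μ : ℕ} {f0 : ℂ}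
  {z : ℝ → ℂ → ι ⊕ κ → ℂ}

theorem An.pos {th Lam s : ℝ} {t : ℂ} (hq : 0 < q) (h : 0 < th * s) (ht : t ∈ An al q th Lam s) :
    0 < ‖t‖ := by
  refine norm_pos_iff.2 fun h0 => ?_
  have := ht.1
  rw [h0, sg, norm_zero, zero_pow hq.ne', mul_zero, inv_zero] at this
  linarith

theorem isOpen_An (ha : 0 < al) (hq : 0 < q) {th Lam s : ℝ} (h : 0 < th * s) :
    IsOpen (An al q th Lam s) := by
  rw [isOpen_iff_mem_nhds]
  intro t ht
  have h0 := An.pos hq h ht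
  have hc : ContinuousAt (sg al q) t := by
    unfold sg
    exact ContinuousAt.inv₀ (by fun_prop) (by positivity)
  exact hc.preimage_mem_nhds (Ioo_mem_nhds ht.1 ht.2)

theorem Cv.mono {lam L Lam th s1 : ℝ} {M : ℕ} {Z : ℝ → ℂ → ι ⊕ κ → ℂ}
    (h : Cv Q F r P q al L Lam th s1 C M f0 Z) (ha : 0 < al) (hq : 0 < q) (hC : 0 ≤ C)
    (hl : lam ≤ L) : Cv Q F r P q al lam Lam th s1 C M f0 Z := by
  have e : ∀ s, 0 < s → Real.exp (-L * s) ≤ Real.exp (-lam * s) := fun s hs =>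
    Real.exp_le_exp.2 (by nlinarith)
  have e2 : ∀ s, 0 < s → Real.exp (-(2 * L) * s) ≤ Real.exp (-(2 * lam) * s) := fun s hs =>
    Real.exp_le_exp.2 (by nlinarith)
  have t0 := h.th_pos
  refine ⟨h.th_pos, h.th_lt, h.s1_pos, h.hol, h.c1, fun s hs t ht => ?_, h.near, h.dom,
    fun s hs t ht ρ h1 h2 => ?_, fun s hs t ht ρ h1 h2 => ?_⟩
  · obtain ⟨Z', a, b⟩ := h.ds s hs t ht
    exact ⟨Z', a, b.trans (mul_le_mul_of_nonneg_left (e s (h.s1_pos.trans hs)) hC)⟩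
  · exact (h.grad s hs t ht ρ h1 h2).trans
      (mul_le_mul_of_nonneg_left (e s (h.s1_pos.trans hs)) hC)
  · have ps := h.s1_pos.trans hs
    have := sg_pos (q := q) ha (An.pos hq (by positivity) ht)
    have pρ : 0 < ρ := lt_of_lt_of_le (by positivity) h1
    exact (h.val s hs t ht ρ h1 h2).trans (mul_le_mul_of_nonneg_left
      (add_le_add (e _ (by positivity)) (e2 s ps)) hC)

/-- arithmetic of the scales -/
theorem scales {th s : ℝ} (t1 : th < 1) (hs : 1 / (1 - th) + 1 < s) :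
    0 < (⌊s⌋ : ℝ) ∧ th * (⌊s⌋ + 1) ≤ ⌊s⌋ ∧ (⌊s⌋ : ℝ) ≤ s ∧ s < ⌊s⌋ + 1 := by
  have a := Int.floor_le s
  have b := Int.lt_floor_add_one s
  have p : 0 < 1 - th := by linarith
  have c1 : 1 / (1 - th) < ⌊s⌋ := by linarith
  have c2 := (div_lt_iff₀ p).1 c1
  exact ⟨(one_div_pos.2 p).trans c1, by nlinarith, a, b⟩

/-- the two cells used at the scale `s` -/
theorem key {th Lam : ℝ} (hc : 0 < c) (ha : 0 < al) (hq : 0 < q) (t0 : 0 < th) (t1 : th < 1)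
    (hL : 1 ≤ Lam) (hΛ : Lam * al / th ^ 4 ≤ Λ) (p3 : 0 < r3) (l3 : r3 ≤ 1 / 2) (n : ℕ) :
    ∃ s1 D, 0 < s1 ∧ 0 ≤ D ∧ ∀ s, s1 < s → ∀ t ∈ An al q th Lam s, 0 < ‖t‖ ∧ ‖t‖ < r3 ∧
      (th ^ 2 * s)⁻¹ ≤ (th ^ 3 * ((⌊s⌋ + 1 : ℤ) : ℝ))⁻¹ ∧
      (th ^ 3 * ((⌊s⌋ + 1 : ℤ) : ℝ))⁻¹ ≤ (th ^ 3 * (⌊s⌋ : ℝ))⁻¹ ∧
      (th ^ 2 * sg al q t)⁻¹ ≤ (th ^ 3 * (⌊s⌋ : ℝ))⁻¹ ∧
      t ∈ OO al q th⁻¹ Λ r3 (th ^ 3 * (⌊s⌋ : ℝ))⁻¹ ∧
      t ∈ OO al q th⁻¹ Λ r3 (th ^ 3 * ((⌊s⌋ + 1 : ℤ) : ℝ))⁻¹ ∧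
      Real.exp (-c / (th ^ 3 * (⌊s⌋ : ℝ))⁻¹) / ‖t‖ ^ n ≤ D * Real.exp (-(c * th ^ 4) * s) := by
  have pΛ : 0 < Λ := lt_of_lt_of_le (by positivity) hΛ
  have h43 : th ^ 4 < th ^ 3 := pow_lt_pow_right_of_lt_one₀ t0 t1 (by norm_num)
  obtain ⟨A, pA, hA⟩ := poly_abs n (mul_lt_mul_of_pos_left h43 hc) (A := al * Lam) (by positivity)
  set s1 := max (1 / (1 - th) + 1) (th * (al * r3 ^ q))⁻¹ with hs1
  have p1 : 0 < s1 := lt_of_lt_of_le (by positivity) (le_max_right _ _)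
  set D := Real.exp c * A with hD
  refine ⟨s1, D, p1, by positivity, ?_⟩
  intro s hs t ht
  have ps : 0 < s := p1.trans hs
  obtain ⟨k0, k1, k2, k3⟩ := scales t1 ((le_max_left _ _).trans_lt hs)
  have a0 := An.pos hq (by positivity) ht
  have psg := sg_pos (q := q) ha a0
  have esg : al * ‖t‖ ^ q = (sg al q t)⁻¹ := by rw [sg, inv_inv]
  have a1 : ‖t‖ < r3 := by
    have b1 : (th * (al * r3 ^ q))⁻¹ < s := (le_max_right _ _).trans_lt hs
    have b2 : (al * r3 ^ q)⁻¹ < sg al q t := by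
      refine lt_trans ?_ ht.1
      rw [mul_inv, inv_mul_lt_iff₀ t0] at b1; exact b1
    rw [sg, inv_lt_inv₀ (by positivity) (by positivity)] at b2
    exact lt_of_pow_lt_pow_left₀ q p3.le (lt_of_mul_lt_mul_left b2 ha.le)
  have a2 : ‖t‖ ≤ 1 := by linarith [l3]
  push_cast
  have a3 : (th ^ 2 * s)⁻¹ ≤ (th ^ 3 * ((⌊s⌋ : ℝ) + 1))⁻¹ :=
    inv_anti₀ (by positivity) (by nlinarith [pow_pos t0 2])
  have a4 : (th ^ 3 * ((⌊s⌋ : ℝ) + 1))⁻¹ ≤ (th ^ 3 * (⌊s⌋ : ℝ))⁻¹ :=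
    inv_anti₀ (by positivity) (by nlinarith [pow_pos t0 3])
  have a5 : (th ^ 2 * sg al q t)⁻¹ ≤ (th ^ 3 * (⌊s⌋ : ℝ))⁻¹ :=
    inv_anti₀ (by positivity) (by nlinarith [pow_pos t0 2, pow_pos t0 3, ht.1])
  have a6 : th⁻¹ * (al * ‖t‖ ^ q) < (th ^ 2 * s)⁻¹ := by
    rw [esg, ← mul_inv]
    exact inv_strictAnti₀ (by positivity) (by nlinarith [ht.1])
  have a7 : (th ^ 3 * (⌊s⌋ : ℝ))⁻¹ < Λ * ‖t‖ := by
    have b1 : (th ^ 3 * (⌊s⌋ : ℝ))⁻¹ < (th ^ 4 * (sg al q t / Lam))⁻¹ := by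
      refine inv_strictAnti₀ (by positivity) ?_
      have : sg al q t / Lam < s := by rw [div_lt_iff₀ (by linarith)]; linarith [ht.2]
      nlinarith [pow_pos t0 3, pow_pos t0 4]
    refine b1.trans_le (le_trans (le_of_eq ?_) (mul_le_mul hΛ
      (pow_le_of_le_one a0.le a2 hq.ne') (by positivity) pΛ.le))
    rw [sg]; field_simp
  refine ⟨a0, a1, a3, a4, a5, ⟨a0, a1, a6.trans_le (a3.trans a4), a7⟩,
    ⟨a0, a1, a6.trans_le a3, a4.trans_lt a7⟩, ?_⟩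
  have b1 := hA s ‖t‖ ps a0 ((inv_le_sg ha hq a0 a2).trans (by nlinarith [ht.2]))
  have b2 : Real.exp (-c / (th ^ 3 * (⌊s⌋ : ℝ))⁻¹) ≤ Real.exp c * Real.exp (-(c * th ^ 3) * s) := by
    rw [← Real.exp_add, div_inv_eq_mul]
    refine Real.exp_le_exp.2 ?_
    have b3 : th ^ 3 ≤ 1 := pow_le_one₀ t0.le t1.le
    have b4 : th ^ 3 * (s - ⌊s⌋) ≤ 1 := by nlinarith [pow_pos t0 3]
    nlinarith
  refine (div_le_div_of_nonneg_right b2 (by positivity)).trans ?_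
  rw [mul_div_assoc, hD, mul_assoc]
  exact mul_le_mul_of_nonneg_left b1 (Real.exp_pos _).le

set_option maxHeartbeats 1000000 in
theorem Fm.cv {th Lam : ℝ} (h : Fm Q F r c P q al th⁻¹ Λ r3 K f0 z μ C1) (hW : Wk Q F r c C)
    (ha : 0 < al) (hq : 0 < q) (t0 : 0 < th) (t1 : th < 1) (hL : 1 ≤ Lam)
    (hΛ : Lam * al / th ^ 4 ≤ Λ) : ∃ s1 C', 0 ≤ C' ∧
      Cv Q F r P q al (c * th ^ 4) Lam th s1 C' (K + 1) f0
        (glue fun k : ℤ => z (th ^ 3 * k)⁻¹) := by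
  have hd : 1 < th⁻¹ := (one_lt_inv₀ t0).2 t1
  have hc := hW.c_pos
  have p3 := h.r3_pos
  have pΛ : 0 < Λ := lt_of_lt_of_le (by positivity) hΛ
  have h42 : th ^ 4 ≤ th ^ 2 := pow_le_pow_of_le_one t0.le t1.le (by norm_num)
  obtain ⟨Ce, pe, he⟩ := h.exp_small hW ha hq t0 t1 (le_trans (by
    rw [inv_mul_eq_div]
    exact div_le_div₀ (by positivity) (by nlinarith) (by positivity) h42) hΛ)
  obtain ⟨Cj, pj, hj⟩ := h.jmp
  obtain ⟨s1, D, p1, pD, key⟩ := key hc ha hq t0 t1 hL hΛ p3 h.r3_le (μ + 2 * K)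
  obtain ⟨Bχ, pχ, hχ⟩ := chi_bd
  set B := 2 * (Fintype.card κ * max C 0) with hB
  have pB : 0 ≤ B := by positivity
  have pM : 0 ≤ max C 0 := le_max_right _ _
  have near : ∀ s, s1 < s → ∀ t ∈ An al q th Lam s,
      ‖glue (fun k : ℤ => z (th ^ 3 * k)⁻¹) s t - B2.cv P (K + 1) t‖ ≤ C1 * ‖t‖ ^ (K + 1) :=
    fun s hs t ht => by
      obtain ⟨-, -, -, -, -, m0, m1, -⟩ := key s hs t ht
      exact glue_near (h.near _ t m0) (h.near _ t m1)
  -- gradient and value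
  have gv : ∀ s, s1 < s → ∀ t ∈ An al q th Lam s, ∀ ρ, (th * sg al q t)⁻¹ ≤ ρ →
      ρ ≤ (th ^ 2 * s)⁻¹ →
      ‖fderiv ℂ (Fd Q F ρ) (glue (fun k : ℤ => z (th ^ 3 * k)⁻¹) s t)‖ ≤
        (Ce + (4 * B + 32 * max C 0 * Cj) * D) * Real.exp (-(c * th ^ 4) * s) ∧
      ‖Fd Q F ρ (glue (fun k : ℤ => z (th ^ 3 * k)⁻¹) s t) - f0‖ ≤
        (B + Ce) * Real.exp (-(c * th ^ 4) * (th ^ 2 * ρ)⁻¹) +
          (Ce * (Cj * D) + 16 * max C 0 * (Cj * D) ^ 2) * Real.exp (-(2 * (c * th ^ 4)) * s) := by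
    intro s hs t ht ρ r1 r2
    obtain ⟨a0, a1, a3, a4, a5, m0, m1, hβ⟩ := key s hs t ht
    obtain ⟨ρ', m2, l2, e2⟩ := he t a0 a1
    have ps : 0 < s := p1.trans hs
    have psg := sg_pos (q := q) ha a0
    have a2 : ‖t‖ ≤ 1 := by linarith [h.r3_le]
    have pρ : 0 < ρ := lt_of_lt_of_le (by positivity) r1
    have pρ' := OO.pos ha hd m2
    have hm := OO.lt ha hd h.Λ_le m0
    set ρm := (th ^ 3 * (⌊s⌋ : ℝ))⁻¹ with hρm
    have l1 : ρ ≤ ρm := r2.trans (a3.trans a4)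
    have s1' := h.sub t a1 ρ (by rwa [sg, mul_inv, inv_inv] at r1) pρ (l1.trans_lt hm)
    have s2' := h.sub' ha hd m2
    have hA1 := EX.adm_disc (κ := κ) Q pρ (l1.trans_lt hm)
    have hA2 := EX.adm_disc (κ := κ) Q pρ' ((l2.trans a5).trans_lt hm)
    have hM : ∀ y ∈ ball (B2.cv P (K + 1) t) (‖t‖ ^ K), ‖Fd Q F ρ' y‖ ≤ max C 0 := fun y hy =>
      (hW.bdd _ hA2 y (s2' hy)).trans (le_max_left _ _)
    have i1 := h.in4' a0 a1 (near s hs t ht)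
    have i2 := h.in4 m2
    set Z := glue (fun k : ℤ => z (th ^ 3 * k)⁻¹) s t with hZ
    set e := Real.exp (-c / ρm) with he'
    have pe' : 0 < e := Real.exp_pos _
    set E := Real.exp (-(c * th ^ 4) * s) with hE
    have pE : 0 < E := Real.exp_pos _
    have dz : ‖Z - z ρ' t‖ ≤ Cj * (e / ‖t‖ ^ μ) :=
      glue_near (hj _ _ ρm le_rfl (l2.trans a5) hm t m0 m2) (hj _ _ ρm a4 (l2.trans a5) hm t m1 m2)
    have b0 : ∀ n ≤ μ + 2 * K, e / ‖t‖ ^ n ≤ D * E := fun n hn =>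
      (div_le_div_of_nonneg_left pe'.le (by positivity) (pow_le_pow_of_le_one a0.le a2 hn)).trans hβ
    have eE : Real.exp (-(c * th ^ 3) * sg al q t) ≤ E :=
      Real.exp_le_exp.2 (by nlinarith [ht.1, mul_pos hc (pow_pos t0 3)])
    have g0 : ‖fderiv ℂ (Fd Q F ρ') (z ρ' t)‖ ≤ Ce * E :=
      ((norm_fst_le (HH Q F f0 z ρ' t)).trans e2).trans (mul_le_mul_of_nonneg_left eE pe)
    have v0 : ‖Fd Q F ρ' (z ρ' t) - f0‖ ≤ Ce * Real.exp (-(c * th ^ 3) * sg al q t) :=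
      (norm_snd_le (HH Q F f0 z ρ' t)).trans e2
    constructor
    · have g1 := pair_grad ((hW.hol _ hA1).mono s1') ((hW.hol _ hA2).mono s2') hM
        (fun y hy => fd_cmp hW pρ pρ' l1 (l2.trans a5) hm (s1' hy) (s2' hy)) i1 i2
      have c1 : 32 * max C 0 / (‖t‖ ^ K) ^ 2 * ‖Z - z ρ' t‖ ≤ 32 * max C 0 * Cj * (D * E) := by
        refine (mul_le_mul_of_nonneg_left dz (by positivity)).trans
          (le_trans (le_of_eq ?_) (mul_le_mul_of_nonneg_left (b0 _ le_rfl) (by positivity)))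
        field_simp; ring
      have c3 : 4 * (B * e) / ‖t‖ ^ K ≤ 4 * B * (D * E) := by
        rw [← mul_assoc, mul_div_assoc]
        exact mul_le_mul_of_nonneg_left (b0 K (by omega)) (by positivity)
      have c4 := norm_le_norm_add_norm_sub' (fderiv ℂ (Fd Q F ρ) Z) (fderiv ℂ (Fd Q F ρ') (z ρ' t))
      unfold Fd at *
      linarith
    · set E' := Real.exp (-(c * th ^ 4) * (th ^ 2 * ρ)⁻¹) with hE'
      have u1 : ρ⁻¹ ≤ th * sg al q t := by rwa [inv_le_comm₀ (by positivity) pρ] at r1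
      have pu : 0 < ρ⁻¹ := by positivity
      have u2 : -(c * th ^ 4) * (th ^ 2 * ρ)⁻¹ = -(c * th ^ 2 * ρ⁻¹) := by field_simp
      have w1 : Real.exp (-(c * th ^ 3) * sg al q t) ≤ E' := by
        rw [hE', u2]
        exact Real.exp_le_exp.2 (by nlinarith [mul_pos hc (pow_pos t0 2)])
      have w2 : Real.exp (-c / max ρ (th ^ 2 * sg al q t)⁻¹) ≤ E' := by
        rcases le_total ρ (th ^ 2 * sg al q t)⁻¹ with h' | h'
        · rw [max_eq_right h', div_inv_eq_mul]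
          refine le_trans (Real.exp_le_exp.2 ?_) w1
          have : th ^ 3 ≤ th ^ 2 := pow_le_pow_of_le_one t0.le t1.le (by norm_num)
          nlinarith [mul_pos hc psg]
        · rw [max_eq_left h', hE', u2, div_eq_mul_inv]
          refine Real.exp_le_exp.2 ?_
          have : th ^ 2 ≤ 1 := pow_le_one₀ t0.le t1.le
          nlinarith [mul_pos hc pu]
      have g1 := pair_val ((hW.hol _ hA2).mono s2') hM
        (fun y hy => fd_cmp hW pρ pρ' (le_max_left _ _) (l2.trans (le_max_right _ _))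
          (max_lt (l1.trans_lt hm) (a5.trans_lt hm)) (s1' hy) (s2' hy)) i1 i2
      have E2 : Real.exp (-(2 * (c * th ^ 4)) * s) = E * E := by
        rw [hE, ← Real.exp_add]; congr 1; ring
      have d1 : ‖Z - z ρ' t‖ ≤ Cj * D * E := by
        rw [mul_assoc]; exact dz.trans (mul_le_mul_of_nonneg_left (b0 μ (by omega)) pj)
      have d2 : ‖Z - z ρ' t‖ / ‖t‖ ^ K ≤ Cj * D * E := by
        rw [mul_assoc]
        refine (div_le_div_of_nonneg_right dz (by positivity)).trans (le_trans (le_of_eq ?_)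
          (mul_le_mul_of_nonneg_left (b0 (μ + K) (by omega)) pj))
        field_simp; ring
      have c1 : ‖fderiv ℂ (Fd Q F ρ') (z ρ' t)‖ * ‖Z - z ρ' t‖ ≤ Ce * (Cj * D) * (E * E) :=
        (mul_le_mul g0 d1 (norm_nonneg _) (by positivity)).trans (le_of_eq (by ring))
      have c2 : 16 * max C 0 / (‖t‖ ^ K) ^ 2 * ‖Z - z ρ' t‖ ^ 2 ≤
          16 * max C 0 * (Cj * D) ^ 2 * (E * E) := by
        have := pow_le_pow_left₀ (by positivity) d2 2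
        refine le_trans (le_of_eq ?_) ((mul_le_mul_of_nonneg_left this
          (by positivity : 0 ≤ 16 * max C 0)).trans (le_of_eq (by ring)))
        field_simp
      have c4 := norm_sub_le_norm_sub_add_norm_sub (Fd Q F ρ Z) (Fd Q F ρ' (z ρ' t)) f0
      have c5 := mul_le_mul_of_nonneg_left w2 pB
      have c6 := mul_le_mul_of_nonneg_left w1 pe
      rw [E2]
      unfold Fd at *
      linarith
  set C2 := Ce + (4 * B + 32 * max C 0 * Cj) * D with hC2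
  set C3 := Ce * (Cj * D) + 16 * max C 0 * (Cj * D) ^ 2 with hC3
  have q1 := h.C_nonneg
  have q2 : 0 ≤ C2 := by positivity
  have q3 : 0 ≤ C3 := by positivity
  have q4 : 0 ≤ Bχ * (Cj * D) := by positivity
  refine ⟨s1, C1 + C2 + C3 + (B + Ce) + Bχ * (Cj * D), by positivity, t0, t1, p1,
    fun s hs => ?_, fun s hs t ht => ?_, fun s hs t ht => ⟨_, glue_ds _ s t, ?_⟩,
    fun s hs t ht => ?_, fun s hs t ht => ?_, fun s hs t ht ρ r1 r2 => ?_,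
    fun s hs t ht ρ r1 r2 => ?_⟩
  · exact glue_hol ((h.hol _).mono fun t ht => (key s hs t ht).2.2.2.2.2.1)
      ((h.hol _).mono fun t ht => (key s hs t ht).2.2.2.2.2.2.1)
  · obtain ⟨-, -, -, -, -, m0, m1, -⟩ := key s hs t ht
    exact glue_c1 ((h.hol _).analyticAt ((isOpen_OO _ _ _ _ _ _).mem_nhds m0))
      ((h.hol _).analyticAt ((isOpen_OO _ _ _ _ _ _).mem_nhds m1))
  · obtain ⟨a0, a1, -, a4, -, m0, m1, hβ⟩ := key s hs t ht
    have b1 := hj _ _ _ a4 le_rfl (OO.lt ha hd h.Λ_le m0) t m1 m0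
    have b2 := (div_le_div_of_nonneg_left (Real.exp_pos _).le (by positivity)
      (pow_le_pow_of_le_one a0.le (by linarith [h.r3_le]) (by omega : μ ≤ μ + 2 * K))).trans hβ
    have b3 := hχ (s - ⌊s⌋) ⟨by linarith [Int.floor_le s], by linarith [Int.lt_floor_add_one s]⟩
    rw [norm_smul, Real.norm_eq_abs]
    refine (mul_le_mul b3 (b1.trans (mul_le_mul_of_nonneg_left b2 pj)) (norm_nonneg _) pχ).trans ?_
    rw [← mul_assoc Cj, ← mul_assoc]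
    exact mul_le_mul_of_nonneg_right (by linarith) (Real.exp_pos _).le
  · exact (near s hs t ht).trans (mul_le_mul_of_nonneg_right (by linarith) (by positivity))
  · obtain ⟨a0, a1, a3, a4, -, m0, -, -⟩ := key s hs t ht
    have psg := sg_pos (q := q) ha a0
    refine ⟨(a3.trans a4).trans_lt (OO.lt ha hd h.Λ_le m0), fun ρ r1 r2 => Subset.trans ?_
      (h.sub t a1 ρ (by rwa [sg, mul_inv, inv_inv] at r1) (lt_of_lt_of_le (by positivity) r1) r2)⟩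
    refine (ball_subset_ball ?_).trans (sub_half (h.in4' a0 a1 (near s hs t ht)))
    rw [pow_succ]
    nlinarith [pow_pos a0 K, h.r3_le]
  · exact (gv s hs t ht ρ r1 r2).1.trans
      (mul_le_mul_of_nonneg_right (by linarith) (Real.exp_pos _).le)
  · refine (gv s hs t ht ρ r1 r2).2.trans ?_
    rw [mul_add]
    exact add_le_add (mul_le_mul_of_nonneg_right (by linarith) (Real.exp_pos _).le)
      (mul_le_mul_of_nonneg_right (by linarith) (Real.exp_pos _).le)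

/-- **Cells along the curve.** -/
theorem curve (hW : Wk Q F r c C) (hO : Ord P q al)
    (hH : ∀ (K : ℕ) (Λ : ℝ), 1 ≤ K → ∃ r2 f0 Z μ C', Hn Q F r P K Λ r2 f0 Z μ C')
    {lam th Lam : ℝ} (t0 : 0 < th) (t1 : th < 1) (hl : lam ≤ c * th ^ 4) (hL : 1 ≤ Lam) {M : ℕ}
    (hM : q + 2 ≤ M) : ∃ s1 C' f0 Z, 0 ≤ C' ∧ Cv Q F r P q al lam Lam th s1 C' M f0 Z := by
  obtain ⟨K, rfl⟩ : ∃ K, M = K + 1 := ⟨M - 1, by omega⟩
  have ha := hO.al_pos
  obtain ⟨r2, f0, Z, μ, C', h⟩ := hH K (Lam * al / th ^ 4) (by omega)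
  obtain ⟨r3, h1⟩ := exists_fm hW hO ((one_lt_inv₀ t0).2 t1) (by positivity) (by omega) h
  obtain ⟨s1, C2, p2, h2⟩ := h1.cv hW ha hO.q_pos t0 t1 hL le_rfl
  exact ⟨s1, C2, f0, _, p2, h2.mono ha hO.q_pos p2 hl⟩

/-- every rate below `c` is reached, with `th` as close to `1` as wanted -/
theorem exists_th {lam c th0 : ℝ} (h : lam < c) (h0 : th0 < 1) :
    ∃ th, 0 < th ∧ th < 1 ∧ th0 < th ∧ lam ≤ c * th ^ 4 := by
  have h1 : Tendsto (fun th : ℝ => c * th ^ 4) (𝓝[<] 1) (𝓝 c) := by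
    have : Continuous fun th : ℝ => c * th ^ 4 := by fun_prop
    simpa using (this.tendsto 1).mono_left nhdsWithin_le_nhds
  have h2 : ∀ᶠ x in 𝓝[<] (1 : ℝ), x ∈ Ioo (max th0 0) 1 := Ioo_mem_nhdsLT (max_lt h0 one_pos)
  obtain ⟨th, a, b⟩ := ((h1.eventually_const_lt h).and h2).exists
  exact ⟨th, (le_max_right _ _).trans_lt b.1, b.2, (le_max_left _ _).trans_lt b.1, a.le⟩

end Crest.Agent.N250.Cc

end
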