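import Crest.Agent.N250.Cc.Main
import Crest.Agent.N250.Ov.Defs

/-!
# Row 250, block (B2), helper93: the sharp rate of the value along the glued curve (`Cc.curve2`).
-/

set_option autoImplicit false
set_option linter.unusedSectionVars false

open Set Metric Filter Topology Function

noncomputable section

namespace Crest.Agent.N250.Cc
open B2

variable {ι κ Γ : Type} [Fintype ι] [Fintype κ] [DecidableEq κ] {P : ℕ → ι ⊕ κ → ℝ} {q : ℕ}
  {al : ℝ} {Q : Cells Γ} {F : (κ → Γ) → (ι ⊕ κ → ℂ) → ℂ} {r c C d Λ r3 C1 : ℝ} {K μ : ℕ} {f0 : ℂ}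
  {z : ℝ → ℂ → ι ⊕ κ → ℂ}

theorem OO.mono {d d' ρ : ℝ} {t : ℂ} (ha : 0 < al) (hd : d' ≤ d) (h : t ∈ OO al q d Λ r3 ρ) :
    t ∈ OO al q d' Λ r3 ρ :=
  ⟨h.1, h.2.1, (mul_le_mul_of_nonneg_right hd (by positivity)).trans_lt h.2.2.1, h.2.2.2⟩

set_option maxHeartbeats 1000000 in
theorem Fm.val2 {th th' th2 Lam lam lam' : ℝ} (h : Fm Q F r c P q al th2⁻¹ Λ r3 K f0 z μ C1)
    (hW : Wk Q F r c C) (ha : 0 < al) (hq : 0 < q) (t0 : 0 < th) (t1 : th ≤ th') (t2 : th' ≤ th2)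
    (t3 : th2 < 1) (hL : 1 ≤ Lam) (hΛ : Lam * al / th ^ 4 ≤ Λ) (hl : lam ≤ c * th ^ 4)
    (hl' : lam' ≤ c * th2 ^ 4) : ∃ C' s2, ∀ s, s2 < s → ∀ t ∈ An al q th Lam s,
      glue (fun k : ℤ => z (th ^ 3 * k)⁻¹) s t ∈ Q.Dom r (fun _ : κ => Q.disc (th' * sg al q t)⁻¹) ∧
      ‖Fd Q F (th' * sg al q t)⁻¹ (glue (fun k : ℤ => z (th ^ 3 * k)⁻¹) s t) - f0‖ ≤
        C' * (Real.exp (-lam' * (th' * sg al q t)) + Real.exp (-(2 * lam) * s)) := by
  have u0 : 0 < th' := t0.trans_le t1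
  have u1 : 0 < th2 := u0.trans_le t2
  have u2 : th ≤ th2 := t1.trans t2
  have u3 : th < 1 := u2.trans_lt t3
  have hd : 1 < th2⁻¹ := (one_lt_inv₀ u1).2 t3
  have hc := hW.c_pos
  have h42 : th ^ 4 ≤ th2 ^ 2 := (pow_le_pow_of_le_one t0.le u3.le (by norm_num)).trans
    (pow_le_pow_left₀ t0.le u2 2)
  obtain ⟨Ce, pe, he⟩ := h.exp_small hW ha hq u1 t3 (le_trans (by
    rw [inv_mul_eq_div]
    exact div_le_div₀ (by positivity) (by nlinarith) (by positivity) h42) hΛ)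
  obtain ⟨Cj, pj, hj⟩ := h.jmp
  obtain ⟨s1, D, p1, pD, key⟩ := key hc ha hq t0 u3 hL hΛ h.r3_pos h.r3_le (μ + K)
  set B := 2 * (Fintype.card κ * max C 0) with hB
  have pB : 0 ≤ B := by positivity
  have pM : 0 ≤ max C 0 := le_max_right _ _
  set C3 := Ce * (Cj * D) + 16 * max C 0 * (Cj * D) ^ 2 with hC3
  have q3 : 0 ≤ C3 := by positivity
  refine ⟨B + Ce + C3, s1, fun s hs t ht => ?_⟩
  obtain ⟨a0, a1, -, a4, a5, m0, m1, hβ⟩ := key s hs t ht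
  replace m0 := OO.mono ha (inv_anti₀ t0 u2) m0
  replace m1 := OO.mono ha (inv_anti₀ t0 u2) m1
  obtain ⟨ρ', m2, l2, e2⟩ := he t a0 a1
  have ps : 0 < s := p1.trans hs
  have psg := sg_pos (q := q) ha a0
  have a2 : ‖t‖ ≤ 1 := by linarith [h.r3_le]
  have pρ' := OO.pos ha hd m2
  have hm := OO.lt ha hd h.Λ_le m0
  set ρm := (th ^ 3 * (⌊s⌋ : ℝ))⁻¹ with hρm
  set ρ := (th' * sg al q t)⁻¹ with hρ
  have pρ : 0 < ρ := by positivity
  have a6 : (th2 ^ 2 * sg al q t)⁻¹ ≤ ρm := le_trans (inv_anti₀ (by positivity)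
    (mul_le_mul_of_nonneg_right (pow_le_pow_left₀ t0.le u2 2) psg.le)) a5
  have l1 : ρ ≤ ρm := le_trans (inv_anti₀ (by positivity)
    (mul_le_mul_of_nonneg_right ((pow_le_of_le_one t0.le u3.le two_ne_zero).trans t1) psg.le)) a5
  have s1' := h.sub t a1 ρ (by
    rw [hρ, sg, mul_inv, inv_inv]
    exact mul_le_mul_of_nonneg_right (inv_anti₀ u0 t2) (by positivity)) pρ (l1.trans_lt hm)
  have s2' := h.sub' ha hd m2
  have hA2 := EX.adm_disc (κ := κ) Q pρ' ((l2.trans a6).trans_lt hm)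
  have hM : ∀ y ∈ ball (B2.cv P (K + 1) t) (‖t‖ ^ K), ‖Fd Q F ρ' y‖ ≤ max C 0 := fun y hy =>
    (hW.bdd _ hA2 y (s2' hy)).trans (le_max_left _ _)
  have i1 := h.in4' a0 a1 (glue_near (z := fun k : ℤ => z (th ^ 3 * k)⁻¹) (h.near _ t m0)
    (h.near _ t m1))
  have i2 := h.in4 m2
  have dz : ‖glue (fun k : ℤ => z (th ^ 3 * k)⁻¹) s t - z ρ' t‖ ≤
      Cj * (Real.exp (-c / ρm) / ‖t‖ ^ μ) :=
    glue_near (hj _ _ ρm le_rfl (l2.trans a6) hm t m0 m2) (hj _ _ ρm a4 (l2.trans a6) hm t m1 m2)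
  set Z := glue (fun k : ℤ => z (th ^ 3 * k)⁻¹) s t with hZ
  refine ⟨s1' (ball_subset_ball (by linarith [pow_pos a0 K]) i1), ?_⟩
  set e := Real.exp (-c / ρm) with he'
  have pe' : 0 < e := Real.exp_pos _
  set E := Real.exp (-lam * s) with hE
  have pE : 0 < E := Real.exp_pos _
  have eE0 : Real.exp (-(c * th ^ 4) * s) ≤ E :=
    Real.exp_le_exp.2 (mul_le_mul_of_nonneg_right (neg_le_neg hl) ps.le)
  have b0 : ∀ n ≤ μ + K, e / ‖t‖ ^ n ≤ D * E := fun n hn =>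
    ((div_le_div_of_nonneg_left pe'.le (by positivity)
      (pow_le_pow_of_le_one a0.le a2 hn)).trans hβ).trans (mul_le_mul_of_nonneg_left eE0 pD)
  have eE : Real.exp (-(c * th2 ^ 3) * sg al q t) ≤ E := by
    refine le_trans (Real.exp_le_exp.2 ?_) eE0
    have b1 : c * th ^ 3 * (th * s) ≤ c * th2 ^ 3 * sg al q t :=
      mul_le_mul (mul_le_mul_of_nonneg_left (pow_le_pow_left₀ t0.le u2 3) hc.le) ht.1.le
        (by positivity) (by positivity)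
    linarith
  have g0 : ‖fderiv ℂ (Fd Q F ρ') (z ρ' t)‖ ≤ Ce * E :=
    ((norm_fst_le (HH Q F f0 z ρ' t)).trans e2).trans (mul_le_mul_of_nonneg_left eE pe)
  have v0 : ‖Fd Q F ρ' (z ρ' t) - f0‖ ≤ Ce * Real.exp (-(c * th2 ^ 3) * sg al q t) :=
    (norm_snd_le (HH Q F f0 z ρ' t)).trans e2
  set E' := Real.exp (-lam' * (th' * sg al q t)) with hE'
  have pE' : 0 < E' := Real.exp_pos _
  have k1 : lam' * (th' * sg al q t) ≤ c * th2 ^ 4 * (th' * sg al q t) :=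
    mul_le_mul_of_nonneg_right hl' (by positivity)
  have k2 : c * th2 ^ 4 * (th' * sg al q t) ≤ c * th2 ^ 3 * sg al q t := by
    have : th2 ^ 4 * th' ≤ th2 ^ 3 := (mul_le_of_le_one_right (by positivity) (by linarith)).trans
      (pow_le_pow_of_le_one u1.le t3.le (by norm_num))
    have := mul_le_mul_of_nonneg_left this (mul_pos hc psg).le
    linarith
  have w1 : Real.exp (-(c * th2 ^ 3) * sg al q t) ≤ E' := Real.exp_le_exp.2 (by linarith)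
  have w2 : Real.exp (-c / max ρ (th2 ^ 2 * sg al q t)⁻¹) ≤ E' := by
    rcases le_total ρ (th2 ^ 2 * sg al q t)⁻¹ with h' | h'
    · rw [max_eq_right h', div_inv_eq_mul]
      refine le_trans (Real.exp_le_exp.2 ?_) w1
      have : th2 ^ 3 ≤ th2 ^ 2 := pow_le_pow_of_le_one u1.le t3.le (by norm_num)
      have := mul_le_mul_of_nonneg_left this (mul_pos hc psg).le
      linarith
    · rw [max_eq_left h', hρ, div_inv_eq_mul]
      refine Real.exp_le_exp.2 ?_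
      have : th2 ^ 4 ≤ 1 := pow_le_one₀ u1.le t3.le
      have := mul_le_mul_of_nonneg_left this (mul_pos hc (mul_pos u0 psg)).le
      linarith
  have g1 := pair_val ((hW.hol _ hA2).mono s2') hM
    (fun y hy => fd_cmp hW pρ pρ' (le_max_left _ _) (l2.trans (le_max_right _ _))
      (max_lt (l1.trans_lt hm) (a6.trans_lt hm)) (s1' hy) (s2' hy)) i1 i2
  have E2 : Real.exp (-(2 * lam) * s) = E * E := by
    rw [hE, ← Real.exp_add]; congr 1; ring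
  have d1 : ‖Z - z ρ' t‖ ≤ Cj * D * E := by
    rw [mul_assoc]; exact dz.trans (mul_le_mul_of_nonneg_left (b0 μ (by omega)) pj)
  have d2 : ‖Z - z ρ' t‖ / ‖t‖ ^ K ≤ Cj * D * E := by
    rw [mul_assoc]
    refine (div_le_div_of_nonneg_right dz (by positivity)).trans (le_trans (le_of_eq ?_)
      (mul_le_mul_of_nonneg_left (b0 (μ + K) le_rfl) pj))
    field_simp; ring
  have c1 : ‖fderiv ℂ (Fd Q F ρ') (z ρ' t)‖ * ‖Z - z ρ' t‖ ≤ Ce * (Cj * D) * (E * E) :=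
    (mul_le_mul g0 d1 (norm_nonneg _) (by positivity)).trans (le_of_eq (by ring))
  have c2 : 16 * max C 0 / (‖t‖ ^ K) ^ 2 * ‖Z - z ρ' t‖ ^ 2 ≤
      16 * max C 0 * (Cj * D) ^ 2 * (E * E) := by
    have := pow_le_pow_left₀ (by positivity) d2 2
    refine le_trans (le_of_eq ?_) ((mul_le_mul_of_nonneg_left this
      (by positivity : 0 ≤ 16 * max C 0)).trans (le_of_eq (by ring)))
    field_simp
  have c4 := norm_sub_le_norm_sub_add_norm_sub (Fd Q F ρ Z) (Fd Q F ρ' (z ρ' t)) f0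
  have c5 := mul_le_mul_of_nonneg_left w2 pB
  have c6 := mul_le_mul_of_nonneg_left w1 pe
  have c7 : 0 ≤ C3 * E' := by positivity
  have c8 : 0 ≤ (B + Ce) * (E * E) := by positivity
  have c9 : (B + Ce + C3) * (E' + E * E) = B * E' + Ce * E' + C3 * E' + (B + Ce) * (E * E) +
      (Ce * (Cj * D) * (E * E) + 16 * max C 0 * (Cj * D) ^ 2 * (E * E)) := by rw [hC3]; ring
  rw [E2, c9]
  unfold Fd at *
  linarith

/-- **Cells along the curve**, with the sharp rate of the value. -/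
theorem curve2 (hW : Wk Q F r c C) (hO : Ord P q al)
    (hH : ∀ (K : ℕ) (Λ : ℝ), 1 ≤ K → ∃ r2 f0 Z μ C', Hn Q F r P K Λ r2 f0 Z μ C')
    {lam th Lam : ℝ} (t0 : 0 < th) (t1 : th < 1) (hl : lam ≤ c * th ^ 4) (hL : 1 ≤ Lam) {M : ℕ}
    (hM : q + 2 ≤ M) : ∃ s1 C' f0 Z, 0 ≤ C' ∧ Cv Q F r P q al lam Lam th s1 C' M f0 Z ∧
      Ov.Val2 Q F r c q al lam Lam th f0 Z := by
  obtain ⟨K, rfl⟩ : ∃ K, M = K + 1 := ⟨M - 1, by omega⟩
  have ha := hO.al_pos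
  obtain ⟨r2, f0, Z, μ, C', h⟩ := hH K (Lam * al / th ^ 4) (by omega)
  obtain ⟨r3, h1⟩ := exists_fm hW hO ((one_lt_inv₀ t0).2 t1) (by positivity) (by omega) h
  obtain ⟨s1, C2, p2, h2⟩ := h1.cv hW ha hO.q_pos t0 t1 hL le_rfl
  refine ⟨s1, C2, f0, _, p2, h2.mono ha hO.q_pos p2 hl, fun th' a b lam' hl' => ?_⟩
  obtain ⟨th2, c0, c1, c2, c3⟩ := exists_th hl' b
  obtain ⟨r4, h4⟩ := exists_fm hW hO ((one_lt_inv₀ c0).2 c1) (by positivity) (by omega) h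
  exact h4.val2 hW ha hO.q_pos t0 a c2.le c1 hL le_rfl hl c3

/-- the form used by the final assembly (`c = 1/2`) -/
theorem curve3 (hW : Wk Q F r (1 / 2) C) (h0 : P 0 = 0) (hne : ∃ m j, P m (Sum.inr j) ≠ 0)
    (hH : ∀ (K : ℕ) (Λ : ℝ), 1 ≤ K → ∃ r2 f0 Z μ C', Hn Q F r P K Λ r2 f0 Z μ C') :
    ∃ q al lam Lam th s1 C1 N f0 Z, Ord P q al ∧ 2 * q + 1 ≤ N ∧
      Cv Q F r P q al lam Lam th s1 C1 N f0 Z ∧ 1 / 4 < lam ∧ 2 * lam ≤ th ^ 2 ∧ 1 < Lam ∧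
      Ov.Val2 Q F r (1 / 2) q al lam Lam th f0 Z := by
  obtain ⟨q, al, hO⟩ := exists_ord h0 hne
  obtain ⟨th, t0, t1, -, hl⟩ := exists_th (lam := 3 / 8) (c := 1 / 2) (th0 := 0) (by norm_num) one_pos
  obtain ⟨s1, C1, f0, Z, -, h1, h2⟩ := curve2 hW hO hH t0 t1 hl (Lam := 2) (by norm_num)
    (M := 2 * q + 2) (by omega)
  have : th ^ 4 ≤ th ^ 2 := pow_le_pow_of_le_one t0.le t1.le (by norm_num)
  exact ⟨q, al, _, _, th, s1, C1, _, f0, Z, hO, by omega, h1, by norm_num, by linarith, by norm_num, h2⟩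

end Crest.Agent.N250.Cc

end
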